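import Mathlib

/-! P235, s-t planar graphs with a constant: the abstract world (helper548), from helper317's
#22649.  Only tight sweeps are needed: all edges are unit edges with `|du| = 1`, all vertices are
on lines. -/

set_option autoImplicit false

namespace Vale.Agent.P235.ST

/-- Unit edges, integral height `u`, index `idx` and lines `L`: `L (idx p)` is a monotone path
through all levels, it contains `p`, and it separates smaller from larger indices. -/
structure World (V : Type) (G : SimpleGraph V) (u : V → ℤ) (idx : V → ℕ) (L : ℕ → Set V) :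
    Prop where
  conn : G.Connected
  step : ∀ x y, G.Adj x y → |u x - u y| = 1
  mem : ∀ p, p ∈ L (idx p)
  le : ∀ p, ∀ z ∈ L (idx p), idx z ≤ idx p
  /-- along a line distances are differences of heights, by a walk between these heights -/
  line : ∀ p, ∀ x ∈ L (idx p), ∀ y ∈ L (idx p), u x ≤ u y →
    ∃ w : G.Walk x y, (w.length : ℤ) = u y - u x ∧ ∀ z ∈ w.support, u x ≤ u z ∧ u z ≤ u y
  /-- a line meets all levels -/
  lev : ∀ p y, ∃ z ∈ L (idx p), u z = u y
  sep : ∀ p a b, idx a ≤ idx p → idx p ≤ idx b → ∀ w : G.Walk a b, ∃ z ∈ w.support, z ∈ L (idx p)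

/-- **PART B** (what has to be proved about worlds) -/
def PartB : Prop :=
  ∃ (c : ℝ) (r0 : ℕ), 0 < c ∧ ∀ (V : Type) [Finite V] (G : SimpleGraph V) (u : V → ℤ)
    (idx : V → ℕ) (L : ℕ → Set V), World V G u idx L →
    ∃ (Ω : Type) (_ : Fintype Ω) (p : Ω → ℝ) (W : Ω → V → ℝ), (∀ ω, 0 ≤ p ω) ∧
      (∀ x y, G.Adj x y → ∑ ω, p ω * |W ω x - W ω y| ≤ 1) ∧
      ∀ x y, r0 ≤ G.dist x y → c * G.dist x y ≤ ∑ ω, p ω * |W ω x - W ω y|

end Vale.Agent.P235.ST
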